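import Vale.Agent.P329.H672.Cen.Pair
import Mathlib.Algebra.Group.MinimalAxioms
import Mathlib.GroupTheory.OrderOfElement

/-! Products in groups whose commutators are central of odd order. -/

namespace Vale.Agent.P329.H672.Cen

open Vale.Agent.P329 Vale.Agent.P329.S4

section baer

variable {K : Type} [Group K] {e : ℕ}

/-- central elements of order dividing `2 e + 1` -/
def EE (K : Type) [Group K] (e : ℕ) : Subgroup K where
  carrier := {h | (∀ g, g * h = h * g) ∧ h ^ (2 * e + 1) = 1}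
  mul_mem' := by
    rintro a b ⟨ha, ha3⟩ ⟨hb, hb3⟩
    refine ⟨fun g => by rw [← mul_assoc, ha, mul_assoc, hb, mul_assoc], ?_⟩
    rw [(show Commute a b from hb a).mul_pow, ha3, hb3, one_mul]
  one_mem' := ⟨fun g => by rw [mul_one, one_mul], one_pow _⟩
  inv_mem' := by
    rintro a ⟨ha, ha3⟩
    exact ⟨fun g => (show Commute g a from ha g).inv_right, by rw [inv_pow, ha3, inv_one]⟩

instance eecomm : CommGroup (EE K e) :=
  { (inferInstance : Group (EE K e)) with mul_comm := fun a b => Subtype.ext (b.2.1 a) }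

/-- underlying element -/
def vE (x : Additive (EE K e)) : K := ((Additive.toMul x : EE K e) : K)

theorem vE_add (a b : Additive (EE K e)) : vE (a + b) = vE a * vE b := rfl
theorem vE_zero : vE (0 : Additive (EE K e)) = 1 := rfl
theorem vE_cen (x : Additive (EE K e)) (g : K) : g * vE x = vE x * g := (Additive.toMul x).2.1 g
theorem vE_pow (x : Additive (EE K e)) : vE x ^ (2 * e + 1) = 1 := (Additive.toMul x).2.2
theorem vE_nsmul (n : ℕ) (x : Additive (EE K e)) : vE (n • x) = vE x ^ n := rfl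
theorem vE_inj {a b : Additive (EE K e)} (h : vE a = vE b) : a = b :=
  Additive.toMul.injective (Subtype.ext h)

theorem ord_smul (x : Additive (EE K e)) : (2 * e + 1) • x = 0 := by
  apply vE_inj
  rw [vE_nsmul, vE_pow, vE_zero]

variable (hK : ∀ x y : K, x * y * x⁻¹ * y⁻¹ ∈ EE K e)

/-- the commutator -/
def cc (x y : K) : Additive (EE K e) := Additive.ofMul ⟨x * y * x⁻¹ * y⁻¹, hK x y⟩

theorem vE_cc (x y : K) : vE (cc hK x y) = x * y * x⁻¹ * y⁻¹ := rfl

theorem cc_one_left (y : K) : cc hK 1 y = 0 := by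
  apply vE_inj
  rw [vE_cc, vE_zero]; group

theorem cc_mul_left (x y z : K) : cc hK (x * y) z = cc hK x z + cc hK y z := by
  apply vE_inj
  have h : vE (cc hK (x * y) z) = x * vE (cc hK y z) * (z * x⁻¹ * z⁻¹) := by
    rw [vE_cc, vE_cc]; group
  have h2 := (vE_cen (cc hK y z) (x * (z * x⁻¹ * z⁻¹))).symm
  rw [vE_add, h, vE_cen (cc hK y z) x, mul_assoc, h2]
  congr 1
  rw [vE_cc]; group

theorem cc_swap (x y : K) : cc hK y x = -cc hK x y := by
  rw [eq_neg_iff_add_eq_zero]
  apply vE_inj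
  rw [vE_add, vE_zero, vE_cc, vE_cc]; group

theorem cc_mul_right (x y z : K) : cc hK x (y * z) = cc hK x y + cc hK x z := by
  rw [cc_swap hK (y * z) x, cc_mul_left, neg_add, ← cc_swap, ← cc_swap]

theorem cc_vE (x : Additive (EE K e)) (y : K) : cc hK (vE x) y = 0 := by
  apply vE_inj
  rw [vE_cc, vE_zero, ← vE_cen x y]; group

theorem comm_eq (x y : K) : x * y = vE (cc hK x y) * (y * x) := by
  rw [vE_cc]; group

/-- the commutative group attached to `K` -/
structure Ba (hK : ∀ x y : K, x * y * x⁻¹ * y⁻¹ ∈ EE K e) where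
  /-- underlying element -/
  val : K

variable {hK}

@[ext] theorem Ba.ext' {a b : Ba hK} (h : a.val = b.val) : a = b := by
  cases a; cases b; cases h; rfl

instance [Finite K] : Finite (Ba hK) :=
  Finite.of_injective (fun a => a.val) fun _ _ h => Ba.ext' h

instance : Mul (Ba hK) := ⟨fun a b => ⟨a.val * b.val * vE (e • cc hK a.val b.val)⟩⟩
instance : One (Ba hK) := ⟨⟨1⟩⟩
instance : Inv (Ba hK) := ⟨fun a => ⟨a.val⁻¹⟩⟩

theorem ba_mul (a b : Ba hK) :
    (a * b).val = a.val * b.val * vE (e • cc hK a.val b.val) := rfl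
theorem ba_one : (1 : Ba hK).val = 1 := rfl

instance baGroup : Group (Ba hK) := by
  refine Group.ofLeftAxioms ?_ ?_ ?_
  · intro a b c
    apply Ba.ext'
    rw [ba_mul, ba_mul, ba_mul, ba_mul, cc_mul_left, cc_mul_left, cc_vE, cc_mul_right,
      cc_mul_right, cc_swap hK (vE _) _, cc_vE, neg_zero, add_zero, add_zero]
    rw [mul_assoc (a.val * b.val), ← vE_cen _ c.val]
    simp only [mul_assoc, ← vE_add]
    congr 4
    rw [nsmul_add, nsmul_add]
    abel
  · intro a
    apply Ba.ext'
    rw [ba_mul, ba_one, cc_one_left, nsmul_zero, vE_zero, mul_one, one_mul]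
  · intro a
    apply Ba.ext'
    rw [ba_mul, ba_one]
    have h : cc hK (a⁻¹).val a.val = 0 := by
      apply vE_inj
      rw [vE_cc, vE_zero]
      show a.val⁻¹ * a.val * (a.val⁻¹)⁻¹ * a.val⁻¹ = 1
      group
    rw [h, nsmul_zero, vE_zero, mul_one]
    exact inv_mul_cancel a.val

instance baComm : CommGroup (Ba hK) :=
  { baGroup with
    mul_comm := fun a b => by
      apply Ba.ext'
      rw [ba_mul, ba_mul, comm_eq hK a.val b.val, cc_swap hK a.val b.val, mul_assoc,
        ← vE_cen, mul_assoc, ← vE_add]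
      congr 2
      rw [smul_neg, eq_neg_iff_add_eq_zero]
      have h3 : ∀ x : Additive (EE K e), x + e • x + e • x = 0 := by
        intro x
        rw [← ord_smul x, two_mul, add_nsmul, add_nsmul, one_nsmul]
        abel
      first
        | exact h3 _
        | (rw [add_comm (e • _)]; exact h3 _) }

end baer

section word

variable {α : Type}

theorem Pr_snoc {Q H : Type} [Monoid H] (act : Q → α → Q) (c : Q → α → H) (q : Q)
    (w : List α) (x : α) : Pr act c q (w ++ [x]) = Pr act c q w * c (w.foldl act q) x := by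
  induction w generalizing q with
  | nil => rw [List.nil_append, Pr_cons, Pr_nil, Pr_nil, List.foldl_nil, one_mul, mul_one]
  | cons y w ih => rw [List.cons_append, Pr_cons, Pr_cons, ih, List.foldl_cons, mul_assoc]

theorem sm_eq_at {B : Type} [Fintype α] [AddCommMonoid B] (F : List α → α → B)
    (w : List α) : sm F w = ∑ b, at_ b (fun u => F u b) w := by
  classical
  unfold at_
  rw [← sm_sum]
  refine sm_congr (fun u x => ?_) w
  rw [Finset.sum_eq_single x]
  · rw [if_pos rfl]
  · intro b _ hb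
    rw [if_neg (Ne.symm hb)]
  · intro h; exact absurd (Finset.mem_univ _) h

theorem kn_fsum {ι B : Type} [Fintype ι] [AddCommMonoid B] [Finite B] {F : ι → List α → B}
    (h : ∀ i, Kn (F i)) : Kn fun w => ∑ i, F i w := by
  have h1 : Kn fun w => fun i => F i w := Kn.pi h
  exact h1.comp fun t => ∑ i, t i

theorem knZ_smul {B : Type} [AddCommGroup B] [Finite B] {N : List α → ℤ} (hN : KnZ N) (z : B) :
    Kn fun w => N w • z := by
  have hne : NeZero (Nat.card B) := ⟨Nat.card_pos.ne'⟩
  have h1 := (hN (Nat.card B) Nat.card_pos).comp fun t => t.val • z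
  refine Eq.mp (congrArg Kn ?_) h1
  funext w
  show ((N w : ℤ) : ZMod (Nat.card B)).val • z = N w • z
  rw [← natCast_zsmul, ZMod.val_intCast, mod_natCard_zsmul]

variable {V : Type} [AddCommGroup V] [Module (ZMod 2) V] [Finite V] (ψ : α → V)
  {K : Type} [Group K] {e : ℕ} {hK : ∀ x y : K, x * y * x⁻¹ * y⁻¹ ∈ EE K e} (c : V → α → K)

/-- product of the values along the automaton -/
def Qg (u : List α) : K := Pr (addq ψ) c 0 u

theorem Qg_nil : Qg ψ c [] = 1 := rfl
theorem Qg_snoc (u : List α) (x : α) : Qg ψ c (u ++ [x]) = Qg ψ c u * c (qs ψ u) x :=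
  Pr_snoc _ _ _ _ _

open Classical in
theorem Cn_snoc (s : V) (a : α) (u : List α) (x : α) :
    Cn ψ s a (u ++ [x]) = Cn ψ s a u + if x = a then ind s (qs ψ u) else 0 := at_snoc _ _ _ _

theorem cc_Qg [Fintype α] [Fintype V] (u : List α) (y : K) :
    cc hK (Qg ψ c u) y = ∑ a, ∑ s : V, Cn ψ s a u • cc hK (c s a) y := by
  classical
  induction u using List.reverseRecOn with
  | nil =>
    rw [Qg_nil, cc_one_left]
    symm
    apply Finset.sum_eq_zero
    intro a _
    apply Finset.sum_eq_zero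
    intro s _
    rw [Cn, at_nil, zero_smul]
  | append_singleton u x ih =>
    rw [Qg_snoc, cc_mul_left, ih]
    have h2 : cc hK (c (qs ψ u) x) y = ∑ a, ∑ s : V,
        (if x = a then ind s (qs ψ u) else 0) • cc hK (c s a) y := by
      rw [Finset.sum_eq_single x]
      · rw [Finset.sum_eq_single (qs ψ u)]
        · rw [if_pos rfl, ind_self, one_smul]
        · intro s _ hs
          rw [if_pos rfl, ind_ne (Ne.symm hs), zero_smul]
        · intro h; exact absurd (Finset.mem_univ _) h
      · intro a _ ha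
        apply Finset.sum_eq_zero
        intro s _
        rw [if_neg (Ne.symm ha), zero_smul]
      · intro h; exact absurd (Finset.mem_univ _) h
    rw [h2, ← Finset.sum_add_distrib]
    refine Finset.sum_congr rfl fun a _ => ?_
    rw [← Finset.sum_add_distrib]
    refine Finset.sum_congr rfl fun s _ => ?_
    rw [Cn_snoc, add_smul]

/-- the commutative product -/
def Qb (hK : ∀ x y : K, x * y * x⁻¹ * y⁻¹ ∈ EE K e) (u : List α) : Ba hK :=
  Pr (addq ψ) (fun p x => (⟨c p x⟩ : Ba hK)) 0 u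

/-- the sum of commutators -/
noncomputable def Sg (hK : ∀ x y : K, x * y * x⁻¹ * y⁻¹ ∈ EE K e) (w : List α) :
    Additive (EE K e) := sm (fun u x => cc hK (Qg ψ c u) (c (qs ψ u) x)) w

theorem Qb_eq (w : List α) : (Qb ψ c hK w).val = Qg ψ c w * vE (e • Sg ψ c hK w) := by
  induction w using List.reverseRecOn with
  | nil =>
    rw [Qg_nil, Sg, sm_nil, nsmul_zero, vE_zero, mul_one]; rfl
  | append_singleton w x ih =>
    have h1 : Qb ψ c hK (w ++ [x]) = Qb ψ c hK w * ⟨c (qs ψ w) x⟩ :=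
      Pr_snoc _ _ _ _ _
    have h2 : Sg ψ c hK (w ++ [x]) = Sg ψ c hK w +
        cc hK (Qg ψ c w) (c (qs ψ w) x) := sm_snoc _ _ _
    rw [h1, ba_mul, ih, Qg_snoc, h2]
    show Qg ψ c w * vE (e • Sg ψ c hK w) * c (qs ψ w) x *
      vE (e • cc hK (Qg ψ c w * vE (e • Sg ψ c hK w)) (c (qs ψ w) x)) = _
    rw [cc_mul_left, cc_vE, add_zero, nsmul_add, vE_add, mul_assoc (Qg ψ c w) (vE _), ← vE_cen]
    simp only [mul_assoc]

theorem Sg_known [Finite α] [Finite K] (hF : F11 α)
    (hc : ∀ s t a x, cc hK (c s a) (c t x) = cc hK (c 0 a) (c (s + t) x)) :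
    Kn (Sg ψ c hK) := by
  classical
  have := Fintype.ofFinite α
  have := Fintype.ofFinite V
  have h1 : Kn fun w => ∑ b, ∑ a, ∑ d : V, at_ b (fun u => Cn ψ (qs ψ u + d) a u) w •
      cc hK (c 0 a) (c d b) :=
    kn_fsum fun b => kn_fsum fun a => kn_fsum fun d => knZ_smul (cn_known ψ hF d a b) _
  refine Eq.mp (congrArg Kn ?_) h1
  funext w
  rw [Sg, sm_eq_at]
  refine Finset.sum_congr rfl fun b _ => ?_
  have h2 : ∀ u : List α, cc hK (Qg ψ c u) (c (qs ψ u) b) =
      ∑ a, ∑ d : V, Cn ψ (qs ψ u + d) a u • cc hK (c 0 a) (c d b) := by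
    intro u
    rw [cc_Qg]
    refine Finset.sum_congr rfl fun a _ => ?_
    rw [← Equiv.sum_comp (Equiv.addLeft (qs ψ u))]
    refine Finset.sum_congr rfl fun d _ => ?_
    rw [Equiv.coe_addLeft, hc]
    have h4 : qs ψ u + d + qs ψ u = d := by
      rw [add_comm (qs ψ u) d, add_assoc, add_self', add_zero]
    rw [h4]
  rw [at_congr h2, at_sum]
  refine Finset.sum_congr rfl fun a _ => ?_
  rw [at_sum]
  refine Finset.sum_congr rfl fun d _ => ?_
  have h3 : ∀ z : Additive (EE K e), at_ b (fun u => Cn ψ (qs ψ u + d) a u) w • z =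
      at_ b (fun u => Cn ψ (qs ψ u + d) a u • z) w := fun z =>
    at_hom (smulAddHom ℤ (Additive (EE K e)) |>.flip z) b _ w
  exact h3 _

theorem Qg_known [Finite α] [Finite K] (hF : F11 α)
    (hK : ∀ x y : K, x * y * x⁻¹ * y⁻¹ ∈ EE K e)
    (hc : ∀ s t a x, cc hK (c s a) (c t x) = cc hK (c 0 a) (c (s + t) x)) :
    Kn (Qg ψ c) := by
  have h1 : Kn (Qb ψ c hK) :=
    Pr_known (fun x s q => known_elem (p := 2) (hp := ⟨Nat.prime_two⟩) ψ x s q) _ 0
  have h2 : Kn (Sg ψ c hK) := Sg_known ψ c hF hc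
  refine Eq.mp (congrArg Kn ?_) (h1.comp₂ h2 fun x y => x.val * (vE (e • y))⁻¹)
  funext w
  rw [Qb_eq, mul_inv_cancel_right]

end word

end Vale.Agent.P329.H672.Cen
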