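import Vale.Agent.P329.H672.Cen.Grp
import Vale.Agent.P329.H265.Known
import Vale.Agent.P329.H697.Defs3

/-! Words in groups with a subgroup which contains all squares and has central commutators. -/

namespace Vale.Agent.P329.H672.Cen

open Vale.Agent.P329 Vale.Agent.P329.S4

theorem f11_all (α : Type) [Finite α] : F11 α := by
  intro r a b
  have h1 : ∀ u : List α, rh r u = H265.rho r u := by
    intro u
    induction u using List.reverseRecOn with
    | nil => rfl
    | append_singleton u x ih =>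
      rw [rh_snoc, ih]
      unfold H265.rho
      rw [H265.par_snoc]
      cases H265.par r u <;> cases r x <;> decide
  have h2 : rh r = H265.rho r := funext h1
  refine (H265.F11_known r a b).congr fun w => ?_
  unfold Xr H265.X
  rw [h2]

/-- elements of the centre killed by a power -/
def cen (G : Type) [Group G] (n : ℕ) : Subgroup G where
  carrier := {z | (∀ g : G, g * z = z * g) ∧ z ^ n = 1}
  mul_mem' := by
    rintro a b ⟨ha, ha3⟩ ⟨hb, hb3⟩
    refine ⟨fun g => by rw [← mul_assoc, ha, mul_assoc, hb, mul_assoc], ?_⟩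
    rw [(show Commute a b from hb a).mul_pow, ha3, hb3, one_mul]
  one_mem' := ⟨fun g => by rw [mul_one, one_mul], one_pow _⟩
  inv_mem' := by
    rintro a ⟨ha, ha3⟩
    exact ⟨fun g => (show Commute g a from ha g).inv_right, by rw [inv_pow, ha3, inv_one]⟩

theorem cen_normal (G : Type) [Group G] (n : ℕ) : (cen G n).Normal := by
  constructor
  intro z hz g
  rw [hz.1 g, mul_inv_cancel_right]
  exact hz

theorem quot_hyp {G : Type} [Group G] {N A : Subgroup G} [A.Normal] {m : ℕ}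
    (hsq : ∀ g : G, g * g ∈ N)
    (hc : ∀ x ∈ N, ∀ y ∈ N, ∀ g : G, g * (x * y * x⁻¹ * y⁻¹) = x * y * x⁻¹ * y⁻¹ * g)
    (hm : ∀ x ∈ N, ∀ y ∈ N, (x * y * x⁻¹ * y⁻¹) ^ m ∈ A) :
    (∀ g : G ⧸ A, g ^ 2 ∈ N.map (QuotientGroup.mk' A)) ∧
    ∀ x ∈ N.map (QuotientGroup.mk' A), ∀ y ∈ N.map (QuotientGroup.mk' A),
      (x * y * x⁻¹ * y⁻¹) ^ m = 1 ∧
      ∀ g : G ⧸ A, g * (x * y * x⁻¹ * y⁻¹) = x * y * x⁻¹ * y⁻¹ * g := by
  refine ⟨?_, ?_⟩
  · intro g
    induction g using QuotientGroup.induction_on with | _ a =>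
    exact ⟨a * a, hsq a, by rw [pow_two]; rfl⟩
  · rintro _ ⟨x, hx, rfl⟩ _ ⟨y, hy, rfl⟩
    refine ⟨?_, fun g => ?_⟩
    · rw [← map_inv, ← map_inv, ← map_mul, ← map_mul, ← map_mul, ← map_pow]
      exact (QuotientGroup.eq_one_iff _).mpr (hm x hx y hy)
    · induction g using QuotientGroup.induction_on with | _ a =>
      rw [← map_inv, ← map_inv, ← map_mul, ← map_mul, ← map_mul]
      exact congrArg (QuotientGroup.mk' A) (hc x hx y hy a)

theorem mk_prod {α G : Type} [Group G] {A : Subgroup G} [A.Normal] (f : α → G) (w : List α) :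
    (w.map fun x => QuotientGroup.mk' A (f x)).prod = QuotientGroup.mk' A (w.map f).prod := by
  rw [map_list_prod, List.map_map]
  rfl

end Vale.Agent.P329.H672.Cen

namespace Vale.Agent.P329.H672

open Vale.Agent.P329 Vale.Agent.P329.S4 Vale.Agent.P329.H672.Cen

theorem central_known {α G : Type} [Finite α] [Group G] [Finite G]
    (hG : H697.CentralSquares G) (f : α → G) : Kn fun w : List α => (w.map f).prod := by
  classical
  obtain ⟨N, hsq, hc⟩ := hG
  obtain ⟨k, m, hm, hkm⟩ := Nat.exists_eq_two_pow_mul_odd (n := Nat.card G) Nat.card_pos.ne'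
  obtain ⟨e, rfl⟩ := hm
  have hA : (cen G (2 ^ k)).Normal := cen_normal G _
  have hB : (cen G (2 * e + 1)).Normal := cen_normal G _
  have hcard : ∀ z : G, (z ^ (2 * e + 1)) ^ (2 ^ k) = 1 := by
    intro z
    rw [← pow_mul, mul_comm, ← hkm, pow_card_eq_one']
  have hcard' : ∀ z : G, (z ^ (2 ^ k)) ^ (2 * e + 1) = 1 := by
    intro z
    rw [← pow_mul, ← hkm, pow_card_eq_one']
  have hcp : ∀ z : G, (∀ g : G, g * z = z * g) → ∀ (n : ℕ) (g : G), g * z ^ n = z ^ n * g :=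
    fun z hz n g => (show Commute g z from hz g).pow_right n
  obtain ⟨a1, a2⟩ := quot_hyp (A := cen G (2 ^ k)) (m := 2 * e + 1) hsq hc
    fun x hx y hy => ⟨hcp _ (hc x hx y hy) _, hcard _⟩
  obtain ⟨b1, b2⟩ := quot_hyp (A := cen G (2 * e + 1)) (m := 2 ^ k) hsq hc
    fun x hx y hy => ⟨hcp _ (hc x hx y hy) _, hcard' _⟩
  have h1 := odd_known (f11_all α) (N.map (QuotientGroup.mk' (cen G (2 ^ k)))) a1 e a2
    fun x => QuotientGroup.mk' (cen G (2 ^ k)) (f x)
  have h2 := even_known (f11_all α) (N.map (QuotientGroup.mk' (cen G (2 * e + 1)))) b1 k b2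
    fun x => QuotientGroup.mk' (cen G (2 * e + 1)) (f x)
  refine Eq.mp (congrArg Kn ?_) (h1.comp₂ h2 fun a b =>
    if h : ∃ g : G, QuotientGroup.mk' (cen G (2 ^ k)) g = a ∧
      QuotientGroup.mk' (cen G (2 * e + 1)) g = b then h.choose else 1)
  funext w
  rw [mk_prod, mk_prod]
  have hex : ∃ g : G, QuotientGroup.mk' (cen G (2 ^ k)) g =
      QuotientGroup.mk' (cen G (2 ^ k)) (w.map f).prod ∧
      QuotientGroup.mk' (cen G (2 * e + 1)) g =
      QuotientGroup.mk' (cen G (2 * e + 1)) (w.map f).prod := ⟨_, rfl, rfl⟩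
  rw [dif_pos hex]
  obtain ⟨c1, c2⟩ := hex.choose_spec
  have d1 : hex.choose⁻¹ * (w.map f).prod ∈ cen G (2 ^ k) := QuotientGroup.eq.mp c1
  have d2 : hex.choose⁻¹ * (w.map f).prod ∈ cen G (2 * e + 1) := QuotientGroup.eq.mp c2
  have h5 : orderOf (hex.choose⁻¹ * (w.map f).prod) ∣ 2 ^ k := orderOf_dvd_of_pow_eq_one d1.2
  have h6 : orderOf (hex.choose⁻¹ * (w.map f).prod) ∣ 2 * e + 1 :=
    orderOf_dvd_of_pow_eq_one d2.2
  have h7 : Nat.Coprime (2 ^ k) (2 * e + 1) := Nat.Coprime.pow_left k (by simp)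
  have h8 : orderOf (hex.choose⁻¹ * (w.map f).prod) ∣ 1 :=
    Dvd.dvd.trans (Nat.dvd_gcd h5 h6) (dvd_of_eq h7)
  have h9 := orderOf_eq_one_iff.1 (Nat.dvd_one.1 h8)
  exact (inv_mul_eq_one.1 h9)

end Vale.Agent.P329.H672
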