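import Vale.Agent.P329.H672.Cen.Baer
import Vale.Agent.P329.R3.H211.Fin
import Mathlib.GroupTheory.Sylow
import Mathlib.GroupTheory.Nilpotent

/-! Groups with a normal subgroup, complemented by a two-group acting through an elementary
abelian group. -/

namespace Vale.Agent.P329.H672.Cen

open Vale.Agent.P329 Vale.Agent.P329.S4 Vale.Agent.P329.H112

theorem two_known {α P : Type} [Finite α] [Group P] [Finite P] (hP : IsPGroup 2 P) (f : α → P) :
    Kn fun w : List α => (w.map f).prod := by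
  have hf : Fact (Nat.Prime 2) := ⟨Nat.prime_two⟩
  have hn : Group.IsNilpotent P := hP.isNilpotent
  have hD : DividesProduct P := by
    refine ⟨Unit, inferInstance, fun _ => P, fun _ => inferInstance,
      fun _ => ⟨inferInstance, Or.inl hn⟩, ⊤,
      (Pi.evalMonoidHom (fun _ : Unit => P) ()).comp (Subgroup.subtype ⊤), ?_⟩
    intro x
    exact ⟨⟨fun _ => x, trivial⟩, rfl⟩
  intro h
  exact H211.div_known hD f h

theorem core {α G : Type} [Finite α] [Group G] [Finite G] (hF : F11 α) (N K P : Subgroup G)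
    [hNn : N.Normal] [hKn : K.Normal] (hsq : ∀ g : G, g ^ 2 ∈ N) (hP : IsPGroup 2 P) (hKN : K ≤ N)
    (hKP : ∀ g : G, ∃ k ∈ K, ∃ p ∈ P, g = k * p)
    (hcen : ∀ z ∈ P, z ∈ N → ∀ k ∈ K, z * k = k * z) {e : ℕ}
    (hK : ∀ x ∈ K, ∀ y ∈ K, (x * y * x⁻¹ * y⁻¹) ^ (2 * e + 1) = 1 ∧
      ∀ g : G, g * (x * y * x⁻¹ * y⁻¹) = x * y * x⁻¹ * y⁻¹ * g)
    (f : α → G) : Kn fun w : List α => (w.map f).prod := by
  classical
  have hone : ∀ q : G ⧸ N, q * q = 1 := by
    intro q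
    induction q using QuotientGroup.induction_on with | _ a =>
    change ((a * a : G) : G ⧸ N) = 1
    rw [← pow_two]
    exact (QuotientGroup.eq_one_iff _).mpr (hsq a)
  let cQ : CommGroup (G ⧸ N) :=
    { (inferInstance : Group (G ⧸ N)) with
      mul_comm := by
        intro a b
        have ha : a⁻¹ = a := inv_eq_of_mul_eq_one_left (hone a)
        have hb : b⁻¹ = b := inv_eq_of_mul_eq_one_left (hone b)
        have hab : (a * b)⁻¹ = a * b := inv_eq_of_mul_eq_one_left (hone _)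
        rw [mul_inv_rev, ha, hb] at hab
        exact hab.symm }
  let mQ : Module (ZMod 2) (Additive (G ⧸ N)) := AddCommGroup.zmodModule (by
    intro x
    induction x using Additive.rec with | _ x =>
    change x ^ 2 = 1
    rw [pow_two]; exact hone x)
  have hfQ : Finite (Additive (G ⧸ N)) := inferInstanceAs (Finite (G ⧸ N))
  choose k hk p hp hkp using hKP
  have hclass : ∀ g : G, ((p g : G) : G ⧸ N) = (g : G ⧸ N) := by
    intro g
    have h1 : ((k g : G) : G ⧸ N) = 1 := (QuotientGroup.eq_one_iff _).mpr (hKN (hk g))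
    conv_rhs => rw [hkp g]
    change _ = ((k g : G) : G ⧸ N) * ((p g : G) : G ⧸ N)
    rw [h1, one_mul]
  -- conjugation by elements of `P` of the same class
  have hconj : ∀ a ∈ P, ∀ b ∈ P, (a : G ⧸ N) = (b : G ⧸ N) → ∀ y ∈ K,
      a * y * a⁻¹ = b * y * b⁻¹ := by
    intro a ha b hb hab y hy
    have h1 : a⁻¹ * b ∈ N := QuotientGroup.eq.mp hab
    have h2 := hcen (a⁻¹ * b) (P.mul_mem (P.inv_mem ha) hb) h1 y hy
    have h3 : b * y = a * y * (a⁻¹ * b) := by
      calc b * y = a * (a⁻¹ * b * y) := by group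
        _ = a * (y * (a⁻¹ * b)) := by rw [h2]
        _ = a * y * (a⁻¹ * b) := by group
    rw [h3]; group
  let s : Additive (G ⧸ N) → G := fun v => p (Quotient.out (Additive.toMul v))
  have hsP : ∀ v, s v ∈ P := fun v => hp _
  have hsc : ∀ v : Additive (G ⧸ N), ((s v : G) : G ⧸ N) = Additive.toMul v := fun v =>
    (hclass _).trans (Quotient.out_eq' _)
  let ψ : α → Additive (G ⧸ N) := fun x => Additive.ofMul ((f x : G) : G ⧸ N)
  let c : Additive (G ⧸ N) → α → K := fun v x =>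
    ⟨s v * k (f x) * (s v)⁻¹, hKn.conj_mem _ (hk _) _⟩
  have hKK : ∀ x y : K, x * y * x⁻¹ * y⁻¹ ∈ EE K e := fun x y =>
    ⟨fun g => Subtype.ext ((hK x x.2 y y.2).2 g), Subtype.ext (hK x x.2 y y.2).1⟩
  have hc : ∀ u v a x, cc hKK (c u a) (c v x) = cc hKK (c 0 a) (c (u + v) x) := by
    intro u v a x
    apply vE_inj
    rw [vE_cc, vE_cc]
    apply Subtype.ext
    push_cast
    have e1 : s 0 * k (f a) * (s 0)⁻¹ = k (f a) := by
      have := hconj (s 0) (hsP 0) 1 P.one_mem (by rw [hsc]; rfl) (k (f a)) (hk _)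
      rw [this, one_mul, inv_one, mul_one]
    have e2 : s (u + v) * k (f x) * (s (u + v))⁻¹ =
        ((s u)⁻¹ * s v) * k (f x) * ((s u)⁻¹ * s v)⁻¹ := by
      apply hconj _ (hsP _) _ (P.mul_mem (P.inv_mem (hsP _)) (hsP _)) _ _ (hk _)
      rw [hsc]
      change _ = ((s u : G) : G ⧸ N)⁻¹ * ((s v : G) : G ⧸ N)
      rw [hsc, hsc, inv_eq_of_mul_eq_one_left (hone (Additive.toMul u))]
      rfl
    change s u * k (f a) * (s u)⁻¹ * (s v * k (f x) * (s v)⁻¹) * (s u * k (f a) * (s u)⁻¹)⁻¹ *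
      (s v * k (f x) * (s v)⁻¹)⁻¹ = s 0 * k (f a) * (s 0)⁻¹ *
      (s (u + v) * k (f x) * (s (u + v))⁻¹) * (s 0 * k (f a) * (s 0)⁻¹)⁻¹ *
      (s (u + v) * k (f x) * (s (u + v))⁻¹)⁻¹
    rw [e1, e2]
    have h1 : ((s u)⁻¹ * s v) * k (f x) * ((s u)⁻¹ * s v)⁻¹ ∈ K := hKn.conj_mem _ (hk _) _
    have h2 := (hK _ (hk (f a)) _ h1).2 (s u)
    have h3 : s u * k (f a) * (s u)⁻¹ * (s v * k (f x) * (s v)⁻¹) *
        (s u * k (f a) * (s u)⁻¹)⁻¹ * (s v * k (f x) * (s v)⁻¹)⁻¹ =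
        s u * (k (f a) * ((s u)⁻¹ * s v * k (f x) * ((s u)⁻¹ * s v)⁻¹) * (k (f a))⁻¹ *
          ((s u)⁻¹ * s v * k (f x) * ((s u)⁻¹ * s v)⁻¹)⁻¹) * (s u)⁻¹ := by group
    rw [h3, h2, mul_inv_cancel_right]
  have hQ : Kn (Qg ψ c) := Qg_known ψ c hF hKK hc
  have hT : Kn fun w : List α => (w.map fun x => (⟨p (f x), hp _⟩ : P)).prod := two_known hP _
  have key : ∀ w : List α, (w.map f).prod = ((Qg ψ c w : K) : G) *
      (((w.map fun x => (⟨p (f x), hp _⟩ : P)).prod : P) : G) ∧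
      ((((w.map fun x => (⟨p (f x), hp _⟩ : P)).prod : P) : G) : G ⧸ N) =
        Additive.toMul (qs ψ w) := by
    intro w
    induction w using List.reverseRecOn with
    | nil =>
      refine ⟨?_, ?_⟩
      · rw [Qg_nil]
        show (1 : G) = ((1 : K) : G) * ((1 : P) : G)
        rw [Subgroup.coe_one, Subgroup.coe_one, one_mul]
      · show (((1 : P) : G) : G ⧸ N) = 1
        rw [Subgroup.coe_one]; rfl
    | append_singleton w x ih =>
      obtain ⟨ih1, ih2⟩ := ih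
      refine ⟨?_, ?_⟩
      · rw [List.map_append, List.prod_append, List.map_singleton, List.prod_singleton, ih1,
          List.map_append, List.prod_append, List.map_singleton, List.prod_singleton, Qg_snoc,
          Subgroup.coe_mul, Subgroup.coe_mul]
        set T := (w.map fun x => (⟨p (f x), hp _⟩ : P)).prod with hTdef
        have h1 := hconj (T : G) T.2 (s (qs ψ w)) (hsP _) (ih2.trans (hsc _).symm)
          (k (f x)) (hk _)
        show _ = ((Qg ψ c w : K) : G) * (s (qs ψ w) * k (f x) * (s (qs ψ w))⁻¹) *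
          ((T : G) * p (f x))
        rw [← h1]
        conv_lhs => rw [hkp (f x)]
        group
      · rw [List.map_append, List.prod_append, List.map_singleton, List.prod_singleton,
          Subgroup.coe_mul, qs_snoc]
        change ((((w.map fun x => (⟨p (f x), hp _⟩ : P)).prod : P) : G) : G ⧸ N) *
          ((p (f x) : G) : G ⧸ N) = Additive.toMul (qs ψ w) * ((f x : G) : G ⧸ N)
        rw [ih2, hclass]
  refine Eq.mp (congrArg Kn ?_) (hQ.comp₂ hT fun x y => ((x : K) : G) * (y : G))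
  funext w
  exact (key w).1.symm

theorem sylow_sur {G : Type} [Group G] [Finite G] (M : Subgroup G) [M.Normal]
    (hM : ∀ g : G, ∃ j : ℕ, g ^ (2 ^ j) ∈ M) (P : Sylow 2 G) (g : G) :
    ∃ k ∈ M, ∃ p ∈ (P : Subgroup G), g = k * p := by
  have hf : Fact (Nat.Prime 2) := ⟨Nat.prime_two⟩
  have h1 : IsPGroup 2 (⊤ : Subgroup (G ⧸ M)) := by
    rintro ⟨q, -⟩
    induction q using QuotientGroup.induction_on with | _ a =>
    obtain ⟨j, hj⟩ := hM a
    refine ⟨j, Subtype.ext ?_⟩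
    change ((a ^ 2 ^ j : G) : G ⧸ M) = 1
    exact (QuotientGroup.eq_one_iff _).mpr hj
  have h2 : (⊤ : Subgroup (G ⧸ M)) =
      (P.mapSurjective (QuotientGroup.mk'_surjective M) : Subgroup (G ⧸ M)) :=
    (P.mapSurjective (QuotientGroup.mk'_surjective M)).is_maximal' h1 le_top
  have h3 : (g : G ⧸ M) ∈ (⊤ : Subgroup (G ⧸ M)) := trivial
  rw [h2, Sylow.coe_mapSurjective] at h3
  obtain ⟨p, hp, hpg⟩ := h3
  refine ⟨g * p⁻¹, ?_, p, hp, by group⟩
  rw [← QuotientGroup.eq_one_iff]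
  change (g : G ⧸ M) * ((p : G) : G ⧸ M)⁻¹ = 1
  rw [← hpg]
  exact mul_inv_cancel _

theorem normal_of_sq {G : Type} [Group G] (N : Subgroup G) (hsq : ∀ g : G, g ^ 2 ∈ N) :
    N.Normal := by
  constructor
  intro n hn g
  have h : g * n * g⁻¹ = (g * n) ^ 2 * n⁻¹ * (g ^ 2)⁻¹ := by
    rw [pow_two, pow_two]; group
  rw [h]
  exact N.mul_mem (N.mul_mem (hsq _) (N.inv_mem hn)) (N.inv_mem (hsq _))

/-- powers in a group with central commutators -/
theorem comm_pow {G : Type} [Group G] {x y : G}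
    (hc : ∀ g : G, g * (x * y * x⁻¹ * y⁻¹) = x * y * x⁻¹ * y⁻¹ * g) (j : ℕ) :
    x ^ j * y = (x * y * x⁻¹ * y⁻¹) ^ j * y * x ^ j := by
  set c := x * y * x⁻¹ * y⁻¹ with hcdef
  have h1 : x * y = c * y * x := by rw [hcdef]; group
  induction j with
  | zero => simp
  | succ j ih =>
    have h4 : x * c ^ j = c ^ j * x := (show Commute x c from hc x).pow_right j
    calc x ^ (j + 1) * y = x * (x ^ j * y) := by rw [pow_succ']; group
      _ = x * c ^ j * y * x ^ j := by rw [ih]; group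
      _ = c ^ j * (x * y) * x ^ j := by rw [h4]; group
      _ = c ^ j * c * y * (x * x ^ j) := by rw [h1]; group
      _ = c ^ (j + 1) * y * x ^ (j + 1) := by rw [← pow_succ, ← pow_succ']

theorem odd_known {α G : Type} [Finite α] [Group G] [Finite G] (hF : F11 α) (N : Subgroup G)
    (hsq : ∀ g : G, g ^ 2 ∈ N) (e : ℕ)
    (hc : ∀ x ∈ N, ∀ y ∈ N, (x * y * x⁻¹ * y⁻¹) ^ (2 * e + 1) = 1 ∧
      ∀ g : G, g * (x * y * x⁻¹ * y⁻¹) = x * y * x⁻¹ * y⁻¹ * g)
    (f : α → G) : Kn fun w : List α => (w.map f).prod := by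
  have hN : N.Normal := normal_of_sq N hsq
  let P : Sylow 2 G := default
  refine core hF N N P hsq P.isPGroup' le_rfl
    (sylow_sur N (fun g => ⟨1, by rw [pow_one]; exact hsq g⟩) P) ?_ hc f
  intro z hzP hzN x hx
  obtain ⟨k, hk⟩ := P.isPGroup' ⟨z, hzP⟩
  have hk' : z ^ (2 ^ k) = 1 := congrArg Subtype.val hk
  obtain ⟨hc3, hcc⟩ := hc z hzN x hx
  have h1 := comm_pow hcc (2 ^ k)
  rw [hk', one_mul, mul_one] at h1
  have h3 : (z * x * z⁻¹ * x⁻¹) ^ (2 ^ k) = 1 := mul_eq_right.1 h1.symm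
  have h4 : z * x * z⁻¹ * x⁻¹ = 1 := by
    have h5 : orderOf (z * x * z⁻¹ * x⁻¹) ∣ 2 ^ k := orderOf_dvd_of_pow_eq_one h3
    have h6 : orderOf (z * x * z⁻¹ * x⁻¹) ∣ 2 * e + 1 := orderOf_dvd_of_pow_eq_one hc3
    have h7 : Nat.Coprime (2 ^ k) (2 * e + 1) := Nat.Coprime.pow_left k (by simp)
    have h8 : orderOf (z * x * z⁻¹ * x⁻¹) ∣ 1 := by
      rw [← h7]
      exact Nat.dvd_gcd h5 h6
    exact orderOf_eq_one_iff.1 (Nat.dvd_one.1 h8)
  have h9 : z * x = (z * x * z⁻¹ * x⁻¹) * (x * z) := by group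
  rw [h9, h4, one_mul]

theorem even_known {α G : Type} [Finite α] [Group G] [Finite G] (hF : F11 α) (N : Subgroup G)
    (hsq : ∀ g : G, g ^ 2 ∈ N) (k : ℕ)
    (hc : ∀ x ∈ N, ∀ y ∈ N, (x * y * x⁻¹ * y⁻¹) ^ (2 ^ k) = 1 ∧
      ∀ g : G, g * (x * y * x⁻¹ * y⁻¹) = x * y * x⁻¹ * y⁻¹ * g)
    (f : α → G) : Kn fun w : List α => (w.map f).prod := by
  have hN : N.Normal := normal_of_sq N hsq
  let P : Sylow 2 G := default
  let K : Subgroup G := N ⊓ Subgroup.centralizer (N : Set G)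
  have hKn : K.Normal := inferInstance
  have hKm : ∀ x ∈ N, (∀ y ∈ N, x * y = y * x) → x ∈ K := fun x hx h =>
    ⟨hx, Subgroup.mem_centralizer_iff.2 fun y hy => (h y hy).symm⟩
  have hKc : ∀ x ∈ K, ∀ y ∈ N, x * y = y * x := fun x hx y hy =>
    (Subgroup.mem_centralizer_iff.1 hx.2 y hy).symm
  have hpow : ∀ x ∈ N, x ^ (2 ^ k) ∈ K := by
    intro x hx
    refine hKm _ (N.pow_mem hx _) fun y hy => ?_
    obtain ⟨h1, h2⟩ := hc x hx y hy
    rw [comm_pow h2, h1, one_mul]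
  refine core (e := 0) hF N K P hsq P.isPGroup' inf_le_left
    (sylow_sur K (fun g => ⟨k + 1, ?_⟩) P) ?_ ?_ f
  · rw [pow_succ', pow_mul]
    exact hpow _ (hsq g)
  · intro z _ hz x hx
    exact (hKc x hx z hz).symm
  · intro x hx y hy
    have h1 : x * y * x⁻¹ * y⁻¹ = 1 := by
      rw [hKc x hx y hy.1]; group
    rw [h1]
    exact ⟨one_pow _, fun g => by rw [mul_one, one_mul]⟩

end Vale.Agent.P329.H672.Cen
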