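import Vale.Agent.P329.S4.Base

/-! Pair counts over an elementary abelian two-group from pair counts with signs. -/

namespace Vale.Agent.P329.H672.Cen

open Vale.Agent.P329 Vale.Agent.P329.S4

/-- sign -/
def sg (t : ZMod 2) : ℤ := if t = 0 then 1 else -1

theorem sg_add (s t : ZMod 2) : sg (s + t) = sg s * sg t := by
  revert s t; decide

theorem sg_zero : sg 0 = 1 := rfl

theorem sg_ind (t : ZMod 2) : sg t = 2 * ind 0 t - 1 := by
  by_cases h : t = 0
  · rw [h, ind_self]; rfl
  · rw [ind_ne h, sg, if_neg h]; rfl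

section chars

variable {V : Type} [AddCommGroup V] [Module (ZMod 2) V] [Finite V]

theorem sum_sg [Fintype (V →ₗ[ZMod 2] ZMod 2)] [DecidableEq V] (d : V) :
    ∑ χ : V →ₗ[ZMod 2] ZMod 2, sg (χ d) =
      if d = 0 then (Fintype.card (V →ₗ[ZMod 2] ZMod 2) : ℤ) else 0 := by
  by_cases h : d = 0
  · rw [if_pos h, h, Finset.sum_congr rfl fun χ _ => by rw [map_zero, sg_zero],
      Finset.sum_const, Finset.card_univ, nsmul_eq_mul, mul_one]
  · have hf : Fact (Nat.Prime 2) := ⟨Nat.prime_two⟩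
    have h1 := sum_char (p := 2) h
    rw [if_neg h, Finset.sum_congr rfl fun χ _ => sg_ind (χ d), Finset.sum_sub_distrib,
      ← Finset.mul_sum, Finset.sum_const, Finset.card_univ, nsmul_eq_mul, mul_one]
    push_cast at h1
    rw [h1, sub_self]

variable {α : Type} (ψ : α → V)

/-- state after a word -/
def qs (u : List α) : V := u.foldl (addq ψ) 0

omit [Module (ZMod 2) V] [Finite V] in
theorem qs_snoc (u : List α) (x : α) : qs ψ (u ++ [x]) = qs ψ u + ψ x := by
  rw [qs, List.foldl_append]; rfl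

/-- number of letters `a` read at the state `s` -/
noncomputable def Cn (s : V) (a : α) (u : List α) : ℤ := at_ a (fun v => ind s (qs ψ v)) u

/-- sign of the prefix -/
def rh (r : α → Bool) (u : List α) : ℤ := (u.map fun x => if r x = true then (-1 : ℤ) else 1).prod

theorem rh_snoc (r : α → Bool) (u : List α) (x : α) :
    rh r (u ++ [x]) = rh r u * if r x = true then (-1 : ℤ) else 1 := by
  rw [rh, List.map_append, List.prod_append, List.map_singleton, List.prod_singleton]; rfl

/-- signed number of letters -/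
noncomputable def Xr (r : α → Bool) (a : α) (u : List α) : ℤ := at_ a (rh r) u

/-- the letters moved by a character -/
def rc (χ : V →ₗ[ZMod 2] ZMod 2) (x : α) : Bool := decide (χ (ψ x) ≠ 0)

omit [Finite V] in
theorem rh_rc (χ : V →ₗ[ZMod 2] ZMod 2) (u : List α) : rh (rc ψ χ) u = sg (χ (qs ψ u)) := by
  induction u using List.reverseRecOn with
  | nil => show (1 : ℤ) = sg (χ 0); rw [map_zero, sg_zero]
  | append_singleton u x ih =>
    rw [rh_snoc, ih, qs_snoc, map_add, sg_add]
    congr 1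
    by_cases h : χ (ψ x) = 0
    · have h1 : ¬ rc ψ χ x = true := by
        show ¬ decide (χ (ψ x) ≠ 0) = true
        rw [decide_eq_true_eq]; exact fun h2 => h2 h
      rw [if_neg h1, h, sg_zero]
    · have h1 : rc ψ χ x = true := by
        show decide (χ (ψ x) ≠ 0) = true
        rw [decide_eq_true_eq]; exact h
      rw [if_pos h1, sg, if_neg h]

/-- the hypothesis on pair counts with signs -/
def F11 (α : Type) : Prop :=
  ∀ (r : α → Bool) (a b : α), KnZ (at_ b fun u => rh r u * Xr r a u)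

omit [Finite V] in
theorem add_self' (v : V) : v + v = 0 := by
  have h : ((1 : ZMod 2) + 1) • v = 0 := by
    rw [show (1 : ZMod 2) + 1 = 0 from by decide, zero_smul]
  rwa [add_smul, one_smul] at h

theorem cn_sum [Fintype (V →ₗ[ZMod 2] ZMod 2)] (d : V) (a : α) (u : List α) :
    (Fintype.card (V →ₗ[ZMod 2] ZMod 2) : ℤ) * Cn ψ (qs ψ u + d) a u =
      ∑ χ : V →ₗ[ZMod 2] ZMod 2, sg (χ d) * (rh (rc ψ χ) u * Xr (rc ψ χ) a u) := by
  classical
  have h1 : ∀ χ : V →ₗ[ZMod 2] ZMod 2, sg (χ d) * (rh (rc ψ χ) u * Xr (rc ψ χ) a u) =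
      at_ a (fun v => sg (χ (d + qs ψ u + qs ψ v))) u := by
    intro χ
    have h2 : ∀ (c : ℤ) (F : List α → ℤ), c * at_ a F u = at_ a (fun v => c * F v) u :=
      fun c F => at_hom (AddMonoidHom.mulLeft c) a F u
    rw [Xr, ← mul_assoc, h2]
    refine at_congr (fun v => ?_) u
    rw [rh_rc, rh_rc, map_add, map_add, sg_add, sg_add]
  rw [Finset.sum_congr rfl fun χ _ => h1 χ, ← at_sum]
  have h3 : (Fintype.card (V →ₗ[ZMod 2] ZMod 2) : ℤ) * Cn ψ (qs ψ u + d) a u =
      at_ a (fun v => (Fintype.card (V →ₗ[ZMod 2] ZMod 2) : ℤ) *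
        ind (qs ψ u + d) (qs ψ v)) u :=
    at_hom (AddMonoidHom.mulLeft _) a _ u
  rw [h3]
  refine at_congr (fun v => ?_) u
  rw [sum_sg]
  by_cases h : qs ψ v = qs ψ u + d
  · rw [h, ind_self, mul_one, if_pos]
    rw [add_comm d, add_self']
  · rw [ind_ne h, mul_zero, if_neg]
    intro h4
    apply h
    have h5 : d + qs ψ u + qs ψ v + qs ψ v = qs ψ v := by rw [h4, zero_add]
    rw [add_assoc (d + qs ψ u), add_self', add_zero] at h5
    rw [← h5, add_comm]

theorem cn_known [Finite α] (hF : F11 α) (d : V) (a b : α) :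
    KnZ (at_ b fun u => Cn ψ (qs ψ u + d) a u) := by
  classical
  have hfin : Finite (V →ₗ[ZMod 2] ZMod 2) :=
    Finite.of_injective (fun χ : V →ₗ[ZMod 2] ZMod 2 => (χ : V → ZMod 2))
      DFunLike.coe_injective
  have := Fintype.ofFinite (V →ₗ[ZMod 2] ZMod 2)
  apply KnZ.div (c := Fintype.card (V →ₗ[ZMod 2] ZMod 2)) Fintype.card_pos
  have h1 := KnZ.sum Finset.univ fun (χ : V →ₗ[ZMod 2] ZMod 2) _ =>
    (hF (rc ψ χ) a b).mul_left (sg (χ d))
  refine h1.congr fun w => ?_
  have h2 : ∀ (c : ℤ) (F : List α → ℤ), c * at_ b F w = at_ b (fun v => c * F v) w :=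
    fun c F => at_hom (AddMonoidHom.mulLeft c) b F w
  rw [h2, at_congr (fun u => cn_sum ψ d a u), at_sum]
  refine Finset.sum_congr rfl fun χ _ => ?_
  rw [h2]

end chars

end Vale.Agent.P329.H672.Cen
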